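import Mathlib

/-!
Sums over tuples in a type with one extra point, for symmetric functions that vanish when the extra
point is repeated.
-/

namespace Vale.Agent.P237.Gen

variable {α : Type} [Fintype α]

theorem sum_tuples_cons {β : Type} [Fintype β] {k : ℕ} (Φ : (Fin (k + 1) → β) → ℝ) :
    ∑ f, Φ f = ∑ b, ∑ g : Fin k → β, Φ (Fin.cons b g) := by
  rw [← Fintype.sum_prod_type' (f := fun b g => Φ (Fin.cons b g))]
  exact ((Fin.consEquiv fun _ => β).sum_comp Φ).symm

theorem sum_option_tuples {k : ℕ} (Φ : (Fin (k + 1) → Option α) → ℝ)
    (hsymm : ∀ (σ : Equiv.Perm (Fin (k + 1))) f, Φ (f ∘ σ) = Φ f)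
    (hrep : ∀ f i j, i ≠ j → f i = none → f j = none → Φ f = 0) :
    ∑ f, Φ f = ∑ g : Fin (k + 1) → α, Φ (fun i => some (g i))
      + (k + 1) * ∑ g : Fin k → α, Φ (Fin.cons none fun i => some (g i)) := by
  induction k with
  | zero =>
    rw [sum_tuples_cons, sum_tuples_cons (fun g : Fin 1 → α => Φ fun i => some (g i))]
    have e : ∀ a : α, (fun i : Fin 1 => some ((Fin.cons a (default : Fin 0 → α) : Fin 1 → α) i))
        = Fin.cons (some a) (default : Fin 0 → Option α) := fun a => by
      funext i
      rw [Fin.fin_one_eq_zero i]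
      rfl
    have e2 : (fun i : Fin 0 => some ((default : Fin 0 → α) i)) = (default : Fin 0 → Option α) :=
      Subsingleton.elim _ _
    simp only [Fintype.sum_option, Fintype.sum_unique, e, e2]
    simp only [Nat.cast_zero, zero_add, one_mul]
    rw [add_comm]
    refine congrArg₂ (· + ·) (Finset.sum_congr rfl fun a _ => ?_) ?_
    · exact congrArg Φ (congrArg _ (Subsingleton.elim _ _))
    · exact congrArg Φ (congrArg _ (Subsingleton.elim _ _))
  | succ k ih =>
    rw [sum_tuples_cons, Fintype.sum_option]
    have h0 : ∑ g : Fin (k + 1) → Option α, Φ (Fin.cons none g)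
        = ∑ g : Fin (k + 1) → α, Φ (Fin.cons none fun i => some (g i)) := by
      classical
      rw [← Finset.sum_subset (Finset.subset_univ
        (Finset.univ.image fun (g : Fin (k + 1) → α) i => some (g i)))]
      · rw [Finset.sum_image]
        intro g _ g' _ h
        funext i
        exact Option.some.inj (congrFun h i)
      · intro f _ hf
        obtain ⟨i, hi⟩ : ∃ i, f i = none := by
          by_contra h
          push Not at h
          choose g hg using fun i => Option.ne_none_iff_exists'.1 (h i)
          exact hf (Finset.mem_image.2 ⟨g, Finset.mem_univ _, funext fun i => (hg i).symm⟩)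
        exact hrep _ 0 i.succ (Fin.succ_ne_zero i).symm (Fin.cons_zero _ _) (by simp [hi])
    have h1 : ∀ a, ∑ g : Fin (k + 1) → Option α, Φ (Fin.cons (some a) g)
        = ∑ g : Fin (k + 1) → α, Φ (Fin.cons (some a) fun i => some (g i))
          + (k + 1) * ∑ g : Fin k → α,
            Φ (Fin.cons none (Fin.cons (some a) fun i => some (g i))) := by
      intro a
      rw [ih (fun g => Φ (Fin.cons (some a) g)) ?_ ?_]
      · congr 2
        refine Finset.sum_congr rfl fun g _ => ?_
        rw [← hsymm (Equiv.swap 0 1)]
        congr 1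
        funext i
        refine Fin.cases ?_ (fun i => ?_) i
        · simp
        refine Fin.cases ?_ (fun j => ?_) i
        · simp
        · rw [Function.comp_apply, Equiv.swap_apply_of_ne_of_ne (Fin.succ_ne_zero _) ?_]
          · rw [Fin.cons_succ, Fin.cons_succ, Fin.cons_succ, Fin.cons_succ]
          · rw [← Fin.succ_zero_eq_one]
            exact fun h => Fin.succ_ne_zero j (Fin.succ_injective _ h)
      · intro σ g
        rw [← hsymm (Equiv.Perm.decomposeFin.symm (0, σ)) (Fin.cons (some a) g)]
        congr 1
        funext i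
        refine Fin.cases ?_ (fun j => ?_) i <;> simp
      · intro g i j hij hi hj
        exact hrep _ i.succ j.succ (fun h => hij (Fin.succ_injective _ h)) (by simp [hi]) (by simp [hj])
    have ec : ∀ {m : ℕ} (a : α) (g : Fin m → α),
        (fun i => some ((Fin.cons a g : Fin (m + 1) → α) i))
          = (Fin.cons (some a) fun i => some (g i) : Fin (m + 1) → Option α) := fun a g => by
      funext i
      refine Fin.cases ?_ (fun j => ?_) i <;> simp
    rw [h0, Finset.sum_congr rfl fun a _ => h1 a, Finset.sum_add_distrib, ← Finset.mul_sum,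
      sum_tuples_cons (fun g : Fin (k + 1 + 1) → α => Φ fun i => some (g i)),
      sum_tuples_cons (fun g : Fin (k + 1) → α => Φ (Fin.cons none fun i => some (g i)))]
    simp only [ec]
    push_cast
    ring

end Vale.Agent.P237.Gen
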