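import Mathlib
import Vale.Agent.P237.Zonotope.Fiber
import Vale.Agent.P237.Gen.Zonotope.Sums

/-!
The volume of a sum of segments in every dimension.
-/

namespace Vale.Agent.P237.Gen

open MeasureTheory Set Pointwise Matrix
open Vale.Agent.P237.Zono (box segm ax box_map box_compact box_convex box_empty box_comp box_option
  volume_real_add_segm)

variable {ι : Type} [Fintype ι]

/-- The absolute determinant of a list of rows. -/
def adet {n : ℕ} (v : Fin n → Fin n → ℝ) : ℝ := |Matrix.det (Matrix.of v)|

theorem adet_comp_perm {n : ℕ} (σ : Equiv.Perm (Fin n)) (v : Fin n → Fin n → ℝ) :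
    adet (v ∘ σ) = adet v := by
  rw [adet, adet, show Matrix.of (v ∘ σ) = (Matrix.of v).submatrix σ id from rfl, Matrix.det_permute,
    abs_mul]
  rcases Int.units_eq_one_or (Equiv.Perm.sign σ) with h | h <;> simp [h]

theorem adet_map {n : ℕ} (T : (Fin n → ℝ) →ₗ[ℝ] (Fin n → ℝ)) (v : Fin n → Fin n → ℝ) :
    adet (fun i => T (v i)) = |LinearMap.det T| * adet v := by
  have e : Matrix.of (fun i => T (v i)) = Matrix.of v * (LinearMap.toMatrix' T)ᵀ := by
    ext i j
    rw [Matrix.mul_apply]
    show T (v i) j = _
    rw [← LinearMap.toMatrix'_mulVec T (v i)]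
    simp only [Matrix.mulVec, dotProduct, Matrix.transpose_apply, Matrix.of_apply]
    exact Finset.sum_congr rfl fun k _ => mul_comm _ _
  rw [adet, adet, e, Matrix.det_mul, Matrix.det_transpose, LinearMap.det_toMatrix', abs_mul, mul_comm]

theorem adet_cons_ax {n : ℕ} (w : Fin n → Fin (n + 1) → ℝ) :
    adet (Fin.cons (ax n) w) = adet fun i => Fin.tail (w i) := by
  rw [adet, adet, Matrix.det_succ_row_zero, Finset.sum_eq_single 0]
  · simp only [Fin.val_zero, pow_zero, one_mul, Fin.succAbove_zero]
    have e : (Matrix.of (Fin.cons (ax n) w)).submatrix Fin.succ Fin.succ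
        = Matrix.of fun i => Fin.tail (w i) := by
      ext i j
      simp [Fin.tail]
    rw [e]
    simp [ax]
  · intro j _ hj
    obtain ⟨i, rfl⟩ := Fin.exists_succ_eq.2 hj
    simp [ax]
  · simp

/-- The coefficient in front of the sum of determinants. -/
noncomputable def coef (n : ℕ) : ℝ := 2 ^ n / n.factorial

theorem coef_pos (n : ℕ) : 0 < coef n := by
  rw [coef]
  positivity

theorem coef_succ (n : ℕ) : (n + 1 : ℝ) * coef (n + 1) = 2 * coef n := by
  rw [coef, coef, Nat.factorial_succ, pow_succ]
  push_cast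
  field_simp

/-- One step up in dimension. -/
theorem volume_add_segm_of {k : ℕ}
    (hk : ∀ t : ι → Fin k → ℝ, volume.real (box t) = coef k * ∑ f : Fin k → ι, adet (t ∘ f))
    (s : ι → Fin (k + 1) → ℝ) (u : Fin (k + 1) → ℝ) :
    volume.real (box s + segm u)
      = volume.real (box s) + 2 * coef k * ∑ f : Fin k → ι, adet (Fin.cons u (s ∘ f)) := by
  rcases eq_or_ne u 0 with rfl | hu
  · have : segm (0 : Fin (k + 1) → ℝ) = {0} := by
      rw [segm]
      simp
    have h0 : ∀ f : Fin k → ι, adet (Fin.cons (0 : Fin (k + 1) → ℝ) (s ∘ f)) = 0 := fun f => by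
      rw [adet, Matrix.det_eq_zero_of_row_eq_zero (0 : Fin (k + 1)) (fun j => by simp), abs_zero]
    simp [this, h0]
  obtain ⟨T, hT⟩ : ∃ T : (Fin (k + 1) → ℝ) ≃ₗ[ℝ] (Fin (k + 1) → ℝ), T u = ax k := by
    have h : ax k ≠ 0 := fun h => by simpa [ax] using congrFun h 0
    obtain ⟨A, hA⟩ := SeparatingDual.exists_continuousLinearEquiv_apply_eq (R := ℝ) hu h
    exact ⟨A.toLinearEquiv, hA⟩
  rw [volume_real_add_segm (box_compact s) (box_convex s) T hT]
  have e1 : Fin.tail '' (T '' box s) = box fun i => Fin.tail (T (s i)) := by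
    rw [show (T '' box s) = box fun i => T (s i) from box_map T.toLinearMap s]
    exact box_map (LinearMap.funLeft ℝ ℝ Fin.succ) _
  rw [e1, hk]
  set d := LinearMap.det (T : (Fin (k + 1) → ℝ) →ₗ[ℝ] (Fin (k + 1) → ℝ)) with hd
  have hd0 : d ≠ 0 := (LinearEquiv.isUnit_det' T).ne_zero
  have e2 : ∀ f : Fin k → ι, adet ((fun i => Fin.tail (T (s i))) ∘ f)
      = |d| * adet (Fin.cons u (s ∘ f)) := fun f => by
    rw [hd, ← adet_map]
    have : (fun i => T ((Fin.cons u (s ∘ f) : Fin (k + 1) → Fin (k + 1) → ℝ) i))
        = Fin.cons (ax k) fun i => T (s (f i)) := by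
      funext i
      refine Fin.cases ?_ (fun j => ?_) i
      · simpa using hT
      · simp
    simp only [LinearEquiv.coe_coe]
    rw [this, adet_cons_ax]
    rfl
  simp only [e2, ← Finset.mul_sum]
  field_simp

/-- The volume of a sum of segments. -/
theorem volume_box : ∀ (k : ℕ) (ι : Type) [Fintype ι] (s : ι → Fin k → ℝ),
    volume.real (box s) = coef k * ∑ f : Fin k → ι, adet (s ∘ f) := by
  intro k
  induction k with
  | zero =>
    intro ι _ s
    have e : box s = univ := eq_univ_of_forall fun x => by
      obtain ⟨y, hy⟩ := Vale.Agent.P237.Zono.box_nonempty s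
      rwa [Subsingleton.elim x y]
    simp [e, coef, adet, measureReal_def, volume_pi, Measure.pi_empty_univ]
  | succ k ih =>
    intro ι _ s
    revert s
    refine Fintype.induction_empty_option (P := fun α inst => ∀ s : α → Fin (k + 1) → ℝ,
      letI := inst
      volume.real (box s) = coef (k + 1) * ∑ f : Fin (k + 1) → α, adet (s ∘ f)) ?_ ?_ ?_ ι
    · intro α β _ e h s
      let := Fintype.ofEquiv β e.symm
      rw [← box_comp e, h (s ∘ e)]
      congr 1
      exact (Equiv.arrowCongr (Equiv.refl (Fin (k + 1))) e).sum_comp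
        (fun f => adet (s ∘ f))
    · intro s
      simp [box_empty, measureReal_def]
    · intro α _ h s
      rw [box_option, volume_add_segm_of (fun t => ih α t), h,
        sum_option_tuples (fun f => adet (s ∘ f))]
      · have e : ∀ g : Fin k → α, s ∘ (Fin.cons none fun i => some (g i) : Fin (k + 1) → Option α)
            = Fin.cons (s none) ((fun i => s (some i)) ∘ g) := fun g => by
          funext i
          refine Fin.cases ?_ (fun j => ?_) i <;> simp
        simp only [e]
        rw [mul_add, ← mul_assoc, mul_comm (coef (k + 1)) ((k : ℝ) + 1), coef_succ]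
        rfl
      · intro σ f
        exact adet_comp_perm σ (s ∘ f)
      · intro f i j hij hi hj
        rw [adet, Matrix.det_zero_of_row_eq hij (by
          funext x
          simp [Matrix.of_apply, hi, hj]), abs_zero]

/-- The volume gained by adding a segment to a sum of segments. -/
theorem volume_add_segm {k : ℕ} (s : ι → Fin (k + 1) → ℝ) (u : Fin (k + 1) → ℝ) :
    volume.real (box s + segm u)
      = volume.real (box s) + 2 * coef k * ∑ f : Fin k → ι, adet (Fin.cons u (s ∘ f)) :=
  volume_add_segm_of (fun t => volume_box k ι t) s u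

end Vale.Agent.P237.Gen
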